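import Crest.Agent.X262.Gal71.Gal
import Crest.Agent.X277.BD.Num

/-!
# Row 262, SURF, DESC + NORM: push-forward of b-divisors along a finite extension

`E ⊆ F` finite, `Ω / E` finite Galois.  `sh p` is the sheet `p : F →ₐ[E] Ω` as a `k`-algebra map.
* `exists_nm` : `∑_p p^* y` is the pull-back of a b-divisor of `E`, free if `y` is free;
* `nm Ω y`    : that b-divisor; `bnum_nm` is the projection formula.
-/

set_option autoImplicit false
set_option linter.unusedSectionVars false
set_option linter.style.haveILetI false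

noncomputable section

namespace Crest.Agent.X262.Gal71

open Module Finset Crest.Agent.X277 Crest.Agent.X277.BD

universe u

variable {k E F Ω : Type u} [Field k] [Field E] [Field F] [Field Ω] [Algebra k E] [Algebra k F]
  [Algebra k Ω] [Algebra E F] [Algebra E Ω] [IsScalarTower k E F] [IsScalarTower k E Ω]

variable (k) in
/-- a sheet as a `k`-algebra map -/
abbrev sh (p : F →ₐ[E] Ω) : F →ₐ[k] Ω := p.restrictScalars k

variable (k E F) in
/-- the inclusion of the base -/
abbrev inc : E →ₐ[k] F := IsScalarTower.toAlgHom k E F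

variable (k) in
/-- an element of the Galois group as a `k`-algebra map -/
abbrev au (g : Ω ≃ₐ[E] Ω) : Ω →ₐ[k] Ω := (g : Ω →ₐ[E] Ω).restrictScalars k

theorem sh_comp (p : F →ₐ[E] Ω) : (sh k p).comp (inc k E F) = inc k E Ω :=
  AlgHom.ext fun x => p.commutes x

theorem sh_smul (g : Ω ≃ₐ[E] Ω) (p : F →ₐ[E] Ω) : sh k (g • p) = (au k g).comp (sh k p) := rfl

theorem au_comp (g : Ω ≃ₐ[E] Ω) : (au k g).comp (inc k E Ω) = inc k E Ω :=
  AlgHom.ext fun x => g.commutes x

theorem pb_sh_inc (p : F →ₐ[E] Ω) (a : BD k E) :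
    pb (sh k p) (pb (inc k E F) a) = pb (inc k E Ω) a := by rw [pb_pb, sh_comp]

theorem pb_au_sh (g : Ω ≃ₐ[E] Ω) (p : F →ₐ[E] Ω) (y : BD k F) :
    pb (au k g) (pb (sh k p) y) = pb (sh k (g • p)) y := by rw [pb_pb, sh_smul]

theorem pb_au_inc (g : Ω ≃ₐ[E] Ω) (a : BD k E) :
    pb (au k g) (pb (inc k E Ω) a) = pb (inc k E Ω) a := by rw [pb_pb, au_comp]

theorem deg_comp {A B C : Type u} [Field A] [Field B] [Field C] [Algebra k A] [Algebra k B]
    [Algebra k C] (α : A →ₐ[k] B) (β : B →ₐ[k] C) : deg (β.comp α) = deg α * deg β := by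
  letI := α.toRingHom.toAlgebra
  letI := β.toRingHom.toAlgebra
  letI := (β.comp α).toRingHom.toAlgebra
  haveI : IsScalarTower A B C := IsScalarTower.of_algebraMap_eq fun _ => rfl
  exact (Module.finrank_mul_finrank A B C).symm

theorem deg_of_surj {A B : Type u} [Field A] [Field B] [Algebra k A] [Algebra k B]
    (α : A →ₐ[k] B) (h : Function.Surjective α) : deg α = 1 := by
  letI := α.toRingHom.toAlgebra
  refine (finrank_eq_one_iff_of_nonzero' (1 : B) one_ne_zero).mpr fun w => ?_
  obtain ⟨c, rfl⟩ := h w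
  exact ⟨c, mul_one _⟩

theorem deg_au (g : Ω ≃ₐ[E] Ω) : deg (au k g) = 1 := deg_of_surj _ g.surjective

theorem deg_sh_mul [CharZero k] (p : F →ₐ[E] Ω) : finrank E F * deg (sh k p) = finrank E Ω := by
  rw [← deg_tower (k := k), ← deg_tower (k := k), ← deg_comp, sh_comp]

variable [CharZero k] [FiniteDimensional E Ω] [IsGalois E Ω] [Fintype (F →ₐ[E] Ω)]

/-- invariance of intersection numbers under the Galois group -/
theorem bnum_au [Algebra.EssFiniteType k Ω] (g : Ω ≃ₐ[E] Ω) (l : List (BD k Ω)) :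
    bnum (l.map (pb (au k g))) = bnum l := by
  rw [bnum_pb, deg_au, Nat.cast_one, one_mul]

theorem exists_nm_free {y : BD k F} (hy : Free y) :
    ∃ z : BD k E, Free z ∧ pb (inc k E Ω) z = ∑ p : F →ₐ[E] Ω, pb (sh k p) y := by
  classical
  haveI : Infinite k := Infinite.of_injective _ Nat.cast_injective
  choose n hn using exists_prod (E := E) (F := F) (Ω := Ω)
  set Y : BD k Ω := ∑ p : F →ₐ[E] Ω, pb (sh k p) y with hY
  obtain ⟨s₀, hs₀, hs₁⟩ := hy
  let U : Submodule k F := Submodule.span k (s₀ : Set F)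
  have hU : U ≤ y.Sec := Submodule.span_le.2 hs₀
  let M : Submodule k Ω := ∏ p : F →ₐ[E] Ω, U.map (sh k p).toLinearMap
  have hM : M.FG := Finset.prod_induction _ Submodule.FG (fun _ _ => Submodule.FG.mul)
    ⟨{1}, by simp [Submodule.one_eq_span]⟩ fun p _ => (Submodule.fg_span s₀.finite_toSet).map _
  have hMY : M ≤ Y.Sec := by
    have : ∀ t : Finset (F →ₐ[E] Ω), ∏ p ∈ t, U.map (sh k p).toLinearMap ≤
        (∑ p ∈ t, pb (sh k p) y).Sec := fun t => by
      induction t using Finset.induction_on with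
      | empty => simpa [Submodule.one_eq_span] using one_mem_Sec
      | insert a t ha ih =>
        rw [Finset.prod_insert ha, Finset.sum_insert ha]
        refine (mul_le_mul' ?_ ih).trans (Sec_mul_le _ _)
        rintro _ ⟨x, hx, rfl⟩
        exact pb_mem_Sec (α := sh k a) (hU hx)
    exact this _
  have hsec : ∀ x ∈ U, inc k E Ω (n x) ∈ M := fun x hx => by
    change algebraMap E Ω (n x) ∈ _
    rw [hn]
    have : ∀ t : Finset (F →ₐ[E] Ω), ∏ p ∈ t, p x ∈ ∏ p ∈ t, U.map (sh k p).toLinearMap :=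
      fun t => by
        induction t using Finset.induction_on with
        | empty => simp [Submodule.one_eq_span]
        | insert a t ha ih =>
          rw [Finset.prod_insert ha, Finset.prod_insert ha]
          exact Submodule.mul_mem_mul ⟨x, hx, rfl⟩ ih
    exact this _
  let T : Submodule k E := M.comap (inc k E Ω).toLinearMap
  haveI : FiniteDimensional k M := Module.Finite.iff_fg.mpr hM
  haveI : FiniteDimensional k T := FiniteDimensional.of_injective
    ((inc k E Ω).toLinearMap.restrict (p := T) (q := M) fun _ h => h)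
    fun a b h => Subtype.ext ((inc k E Ω).injective (congrArg Subtype.val h))
  obtain ⟨s, hs⟩ : T.FG := Module.Finite.iff_fg.mp inferInstance
  refine ⟨mx k s, free_mx s, ?_⟩
  rw [show pb (inc k E Ω) (mx k s) = _ from mp_mx s]
  refine (eq_mx (fun g hg => ?_) fun W => ?_).symm
  · obtain ⟨x, hx, rfl⟩ := Finset.mem_image.mp hg
    have : x ∈ T := hs ▸ Submodule.subset_span hx
    exact hMY this
  · let B : (F →ₐ[E] Ω) → Submodule k U := fun p =>
      { carrier := {x | W.v (p x) < (pb (sh k p) y).val W}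
        add_mem' := fun {a b} ha hb => by
          change W.v (p (a + b)) < _
          rw [map_add]
          exact (W.v.map_add _ _).trans_lt (max_lt ha hb)
        zero_mem' := by
          change W.v (p 0) < _
          rw [map_zero, map_zero]
          exact val_pos _ _
        smul_mem' := fun c x hx => by
          change W.v (sh k p (c • (x : F))) < _
          rw [map_smul]
          exact (W.v_smul_le c _).trans_lt hx }
    have hx : ∃ x : U, ∀ p, x ∉ B p := by
      by_contra hc
      push Not at hc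
      obtain ⟨p, hp⟩ := Subspace.exists_eq_top_of_iUnion_eq_univ (p := B)
        (Set.eq_univ_of_forall fun u => Set.mem_iUnion.2 (hc u))
      obtain ⟨g, hg, hv⟩ := hs₁ (cm (sh k p : F →+* Ω) (alg_ov (sh k p)) W)
      have h1 : (⟨g, Submodule.subset_span hg⟩ : U) ∈ B p := hp ▸ Submodule.mem_top
      exact (ne_of_lt h1) (v_eq_val_mp.mpr hv)
    obtain ⟨x, hx⟩ := hx
    have hv : W.v (inc k E Ω (n x)) = Y.val W := by
      change W.v (algebraMap E Ω (n x)) = _
      rw [hn, hY, val_sum, map_prod]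
      refine Finset.prod_congr rfl fun p _ => ?_
      exact le_antisymm (pb_mem_Sec (α := sh k p) (hU x.2) W) (not_lt.mp (hx p))
    by_contra hc
    push Not at hc
    have hlt : ∀ g ∈ s, W.v (inc k E Ω g) < Y.val W := fun g hg => by
      have h1 : g ∈ T := hs ▸ Submodule.subset_span hg
      exact lt_of_le_of_ne (hMY h1 W) (hc _ (Finset.mem_image_of_mem _ hg))
    have h2 : n x ∈ Submodule.span k (s : Set E) := hs.symm ▸ hsec x x.2
    have h3 : ∀ e ∈ Submodule.span k (s : Set E), W.v (inc k E Ω e) < Y.val W := by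
      intro e he
      induction he using Submodule.span_induction with
      | mem g hg => exact hlt g hg
      | zero => rw [map_zero, map_zero]; exact val_pos _ _
      | add a b _ _ ha hb => rw [map_add]; exact (W.v.map_add _ _).trans_lt (max_lt ha hb)
      | smul c a _ ha => rw [map_smul]; exact (W.v_smul_le c _).trans_lt ha
    exact (h3 _ h2).ne hv

theorem exists_nm (y : BD k F) :
    ∃ z : BD k E, pb (inc k E Ω) z = ∑ p : F →ₐ[E] Ω, pb (sh k p) y := by
  obtain ⟨b, c, hb, hc, rfl⟩ := exists_sub y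
  obtain ⟨z, -, hz⟩ := exists_nm_free (E := E) (Ω := Ω) hb
  obtain ⟨z', -, hz'⟩ := exists_nm_free (E := E) (Ω := Ω) hc
  exact ⟨z - z', by simp only [map_sub, hz, hz', Finset.sum_sub_distrib]⟩

variable (E Ω) in
/-- the push-forward (norm) of b-divisors -/
def nm : BD k F →+ BD k E := AddMonoidHom.mk' (fun y => (exists_nm (E := E) (Ω := Ω) y).choose)
  fun a b => pb_injective (inc k E Ω) (by
    rw [map_add, (exists_nm _).choose_spec, (exists_nm _).choose_spec, (exists_nm _).choose_spec]
    simp only [map_add, Finset.sum_add_distrib])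

theorem pb_nm (y : BD k F) : pb (inc k E Ω) (nm E Ω y) = ∑ p : F →ₐ[E] Ω, pb (sh k p) y :=
  (exists_nm y).choose_spec

theorem free_nm {y : BD k F} (hy : Free y) : Free (nm E Ω y) := by
  obtain ⟨z, hz, h⟩ := exists_nm_free (E := E) (Ω := Ω) hy
  rwa [pb_injective (inc k E Ω) ((pb_nm y).trans h.symm)]

theorem nef_nm {y : BD k F} (hy : Nef y) : Nef (nm E Ω y) := by
  obtain ⟨h, hh, H⟩ := hy
  refine ⟨nm E Ω h, free_nm hh, fun m => ?_⟩
  obtain ⟨r, hr, h1⟩ := H m
  exact ⟨r, hr, by simpa only [map_nsmul, map_add] using free_nm (E := E) (Ω := Ω) h1⟩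

theorem nm_mono {y y' : BD k F} (h : y ≤ y') : nm E Ω y ≤ nm E Ω y' := by
  rw [← pb_le_iff (α := inc k E Ω), pb_nm, pb_nm]
  exact Finset.sum_le_sum fun p _ => pb_le_iff.mpr h

theorem nm_nonneg {y : BD k F} (h : 0 ≤ y) : 0 ≤ nm E Ω y := map_zero (nm (k := k) (F := F) E Ω) ▸ nm_mono h

theorem nm_pb (p₀ : F →ₐ[E] Ω) (a : BD k E) : nm E Ω (pb (inc k E F) a) = finrank E F • a := by
  refine pb_injective (inc k E Ω) ?_
  rw [pb_nm, map_nsmul]
  simp only [pb_sh_inc]
  rw [Finset.sum_const, Finset.card_univ, ← Nat.card_eq_fintype_card, card_sh p₀]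

theorem deg_sh_pos (p : F →ₐ[E] Ω) : 0 < deg (sh k p) := by
  have h := deg_sh_mul (k := k) p
  have : 0 < finrank E Ω := Module.finrank_pos
  exact Nat.pos_of_ne_zero fun h0 => by rw [h0] at h; omega

theorem deg_sh_eq (p p' : F →ₐ[E] Ω) : deg (sh k p) = deg (sh k p') := by
  obtain ⟨g, rfl⟩ := MulAction.exists_smul_eq (Ω ≃ₐ[E] Ω) p p'
  rw [sh_smul, deg_comp, deg_au, mul_one]

variable [Algebra.EssFiniteType k Ω] [Algebra.EssFiniteType k E] [Algebra.EssFiniteType k F]

theorem bnum_sh (p : F →ₐ[E] Ω) (y : BD k F) (l : List (BD k E)) :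
    bnum (pb (sh k p) y :: l.map (pb (inc k E Ω)))
      = deg (sh k p) * bnum (y :: l.map (pb (inc k E F))) := by
  rw [← bnum_pb, List.map_cons, List.map_map]
  congr 2
  exact List.map_congr_left fun a _ => (pb_sh_inc p a).symm

/-- **projection formula** for the push-forward -/
theorem bnum_nm (p₀ : F →ₐ[E] Ω) (y : BD k F) (l : List (BD k E)) :
    bnum (nm E Ω y :: l) = bnum (y :: l.map (pb (inc k E F))) := by
  have h1 := bnum_pb (inc k E Ω) (nm E Ω y :: l)
  rw [List.map_cons, pb_nm, bnum_sum, deg_tower] at h1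
  simp only [bnum_sh, deg_sh_eq _ p₀] at h1
  rw [Finset.sum_const, Finset.card_univ, ← Nat.card_eq_fintype_card, card_sh p₀, nsmul_eq_mul,
    ← mul_assoc, ← Nat.cast_mul, deg_sh_mul] at h1
  have : (finrank E Ω : ℤ) ≠ 0 := by exact_mod_cast (Module.finrank_pos (R := E) (M := Ω)).ne'
  exact (mul_left_cancel₀ this h1).symm

end Crest.Agent.X262.Gal71
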