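import Crest.Agent.X262.Gal71.DescS
import Crest.Agent.X262.Geo.Dv
import Crest.Agent.X262.Hor83.Main

/-!
# Row 262, SURF: `NormStmt` (push-forward of divisors onto a smooth model)
-/

set_option autoImplicit false

namespace Crest.Agent.X262.Gal71

open Crest.Agent.X277 Crest.Agent.X277.Lef Crest.Agent.X277.BD Crest.Agent.X277.BD.Br
open Crest.Agent.X262.Surf

/-- the trace on a smooth surface has the same intersection numbers with divisors of the model -/
theorem bnum_tr {E : Type} [Field E] [Algebra ℂ E] [Algebra.EssFiniteType ℂ E] (hE : dim ℂ E = 2)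
    (B : PModel ℂ E) (a : BD ℂ E) {y : BD ℂ E} (hy : y ∈ On B) :
    bnum [Geo.tr B a, y] = bnum [a, y] :=
  Geo.bnum_tr (fun _ hV h => Hor83.dg_car hE free_oP (Geo.car_of_On hy) hV h) a

theorem normStmt : NormStmt := by
  intro E F _ _ _ _ _ _ α B b a hF
  have hE := Hor83.dim_two b
  obtain ⟨ν, h, -⟩ := exists_push α ((deg_pos_iff α).2 (hF.trans hE.symm))
  exact ⟨Geo.tr B (ν a), Geo.tr_mem _, fun y hy => ((bnum_tr hE B _ hy).trans (h a [y])).symm⟩

end Crest.Agent.X262.Gal71
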