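import Crest.Agent.X262.Gal71.Desc
import Crest.Agent.X262.Surf.Defs

/-!
# Row 262, SURF: `DescStmt`, and the push-forward along an arbitrary finite embedding
-/

set_option autoImplicit false
set_option linter.style.haveILetI false

noncomputable section

namespace Crest.Agent.X262.Gal71

open Module Finset Crest.Agent.X277 Crest.Agent.X277.BD

/-- **Galois descent** of invariant b-divisors -/
theorem descStmt : Surf.DescStmt := by
  intro E Ω _ _ _ _ _ _ _ _ a ha
  classical
  letI : Fintype (Ω →ₐ[E] Ω) := Fintype.ofFinite _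
  refine ⟨finrank E Ω, nm E Ω a, Module.finrank_pos, ?_, nef_nm⟩
  rw [pb_nm, Finset.sum_congr rfl (g := fun _ => a), Finset.sum_const, Finset.card_univ,
    ← Nat.card_eq_fintype_card, card_sh (AlgHom.id E Ω)]
  intro p _
  obtain ⟨g, rfl⟩ := MulAction.exists_smul_eq (Ω ≃ₐ[E] Ω) (AlgHom.id E Ω) p
  exact ha g

universe u

/-- push-forward along a finite embedding: the projection formula -/
theorem exists_push {k E F : Type u} [Field k] [Field E] [Field F] [Algebra k E] [Algebra k F]
    [CharZero k] [Algebra.EssFiniteType k E] [Algebra.EssFiniteType k F] (α : E →ₐ[k] F)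
    (hα : 0 < deg α) : ∃ ν : BD k F →+ BD k E,
      (∀ y l, bnum (ν y :: l) = bnum (y :: l.map (pb α))) ∧ (∀ y, Free y → Free (ν y)) ∧
      (∀ y, Nef y → Nef (ν y)) ∧ (∀ y, 0 ≤ y → 0 ≤ ν y) ∧ ∀ a, ν (pb α a) = deg α • a := by
  classical
  letI := α.toRingHom.toAlgebra
  haveI : IsScalarTower k E F := IsScalarTower.of_algebraMap_eq fun x => (α.commutes x).symm
  haveI : FiniteDimensional E F := Module.finite_of_finrank_pos hα
  haveI : CharZero E := charZero_of_injective_algebraMap (algebraMap k E).injective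
  obtain ⟨Ω, h1, h2, ⟨p⟩⟩ := exists_closure E F
  haveI : Algebra.EssFiniteType k Ω := Algebra.EssFiniteType.comp k E Ω
  letI : Fintype (F →ₐ[E] Ω) := Fintype.ofFinite _
  exact ⟨nm E Ω, bnum_nm p, fun _ => free_nm, fun _ => nef_nm, fun _ => nm_nonneg, nm_pb p⟩

end Crest.Agent.X262.Gal71
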