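import Mathlib

/-!
# Row 262, SURF, GAL: the Galois group acts on the sheets `F →ₐ[E] Ω`
-/

set_option autoImplicit false
set_option linter.unusedSectionVars false
set_option linter.style.haveILetI false

namespace Crest.Agent.X262.Gal71

open Module

variable {E F Ω : Type*} [Field E] [Field F] [Field Ω] [Algebra E F] [Algebra E Ω]

instance actSh : MulAction (Ω ≃ₐ[E] Ω) (F →ₐ[E] Ω) where
  smul g p := (g : Ω →ₐ[E] Ω).comp p
  one_smul _ := rfl
  mul_smul _ _ _ := rfl

theorem smul_apply (g : Ω ≃ₐ[E] Ω) (p : F →ₐ[E] Ω) (x : F) : (g • p) x = g (p x) := rfl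

theorem smul_def (g : Ω ≃ₐ[E] Ω) (p : F →ₐ[E] Ω) : g • p = (g : Ω →ₐ[E] Ω).comp p := rfl

variable [FiniteDimensional E Ω] [IsGalois E Ω]

instance : MulAction.IsPretransitive (Ω ≃ₐ[E] Ω) (F →ₐ[E] Ω) where
  exists_smul_eq p p' := by
    letI := p.toRingHom.toAlgebra
    haveI : IsScalarTower E F Ω := IsScalarTower.of_algebraMap_eq fun c => (p.commutes c).symm
    refine ⟨AlgEquiv.ofBijective (p'.liftNormal Ω)
      (Algebra.IsAlgebraic.algHom_bijective _), AlgHom.ext fun x => ?_⟩
    exact p'.liftNormal_commutes Ω x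

theorem finite_of_sh (p : F →ₐ[E] Ω) : FiniteDimensional E F :=
  FiniteDimensional.of_injective p.toLinearMap p.injective

/-- the number of sheets is the degree -/
theorem card_sh (p : F →ₐ[E] Ω) : Nat.card (F →ₐ[E] Ω) = finrank E F := by
  have := finite_of_sh p
  have : Algebra.IsSeparable E F := Algebra.IsSeparable.of_algHom E Ω p
  refine AlgHom.natCard_of_splits E F Ω fun x => ?_
  rw [← minpoly.algHom_eq p p.injective x]
  exact Normal.splits inferInstance (p x)

theorem stabilizer_sh (p : F →ₐ[E] Ω) :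
    MulAction.stabilizer (Ω ≃ₐ[E] Ω) p = p.fieldRange.fixingSubgroup := by
  ext g
  rw [MulAction.mem_stabilizer_iff, IntermediateField.mem_fixingSubgroup_iff]
  constructor
  · rintro h _ ⟨x, rfl⟩
    exact congrArg (fun φ : F →ₐ[E] Ω => φ x) h
  · intro h
    exact AlgHom.ext fun x => h _ ⟨x, rfl⟩

/-- no intermediate field ⇒ the action on the sheets is primitive -/
theorem preprimitive (p : F →ₐ[E] Ω) (h2 : 2 ≤ finrank E F)
    (hmax : ∀ M : IntermediateField E F, M = ⊥ ∨ M = ⊤) :
    MulAction.IsPreprimitive (Ω ≃ₐ[E] Ω) (F →ₐ[E] Ω) := by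
  have hc := card_sh p
  have : Finite (F →ₐ[E] Ω) := Nat.finite_of_card_ne_zero (by omega)
  have : Nontrivial (F →ₐ[E] Ω) := Finite.one_lt_card_iff_nontrivial.mp (by omega)
  refine (MulAction.isCoatom_stabilizer_iff_preprimitive _ p).mp ?_
  rw [stabilizer_sh]
  have hat : IsAtom p.fieldRange := by
    constructor
    · intro h
      have h1 : finrank E p.fieldRange = finrank E F :=
        (AlgEquiv.ofInjectiveField p).toLinearEquiv.finrank_eq.symm
      rw [h, IntermediateField.finrank_bot] at h1
      omega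
    · intro M hM
      rcases hmax (M.comap p) with h | h
      · refine le_bot_iff.mp fun x hx => ?_
        obtain ⟨y, rfl⟩ := hM.le hx
        have : y ∈ M.comap p := hx
        rw [h, IntermediateField.mem_bot] at this
        obtain ⟨c, rfl⟩ := this
        exact IntermediateField.mem_bot.mpr ⟨c, (p.commutes c).symm⟩
      · refine absurd ?_ hM.not_ge
        rintro _ ⟨y, rfl⟩
        have : y ∈ M.comap p := h ▸ IntermediateField.mem_top
        exact this
  exact (OrderIso.isAtom_iff (IsGalois.intermediateFieldEquivSubgroup (F := E) (E := Ω))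
    p.fieldRange).mpr hat

/-- a product over all sheets comes from the base field -/
theorem exists_prod [Fintype (F →ₐ[E] Ω)] (x : F) :
    ∃ n : E, algebraMap E Ω n = ∏ p : F →ₐ[E] Ω, p x := by
  rw [← RingHom.mem_range, ← SetLike.mem_coe, RingHom.coe_range,
    IsGalois.mem_range_algebraMap_iff_fixed]
  intro g
  rw [map_prod]
  exact Fintype.prod_equiv (MulAction.toPerm g) _ _ fun _ => rfl

/-- a maximal proper intermediate field above a given proper one -/
theorem exists_max {k : Type*} [Field k] [Algebra k F] (E₀ : IntermediateField k F)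
    (h2 : 2 ≤ finrank E₀ F) : ∃ E₁ : IntermediateField k F, E₀ ≤ E₁ ∧ 2 ≤ finrank E₁ F ∧
      finrank E₁ F ≤ finrank E₀ F ∧ ∀ M : IntermediateField E₁ F, M = ⊥ ∨ M = ⊤ := by
  classical
  have hfin : FiniteDimensional E₀ F := Module.finite_of_finrank_pos (by omega)
  have hex : ∃ n, ∃ E₁ : IntermediateField k F, E₀ ≤ E₁ ∧ 2 ≤ finrank E₁ F ∧ finrank E₁ F = n :=
    ⟨_, E₀, le_rfl, h2, rfl⟩
  obtain ⟨E₁, h01, h21, hn⟩ := Nat.find_spec hex
  have hmin : ∀ E₂ : IntermediateField k F, E₀ ≤ E₂ → 2 ≤ finrank E₂ F →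
      finrank E₁ F ≤ finrank E₂ F := fun E₂ ha hb => hn ▸ Nat.find_min' hex ⟨E₂, ha, hb, rfl⟩
  refine ⟨E₁, h01, h21, hmin E₀ le_rfl h2, fun M => ?_⟩
  have : FiniteDimensional E₁ F := Module.finite_of_finrank_pos (by omega)
  have hmul := Module.finrank_mul_finrank E₁ M F
  have hpos : 0 < finrank M F := Module.finrank_pos
  by_cases h1 : finrank M F = 1
  · exact Or.inr (IntermediateField.finrank_eq_one_iff_eq_top.mp h1)
  · left
    have hle : E₁ ≤ M.restrictScalars k := fun x hx => M.algebraMap_mem ⟨x, hx⟩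
    have h3 : finrank E₁ F ≤ finrank M F := hmin (M.restrictScalars k) (h01.trans hle)
      (show 2 ≤ finrank M F by omega)
    have h4 : finrank E₁ M = 1 := by
      have h5 : 0 < finrank E₁ M := Module.finrank_pos
      by_contra h6
      have : 2 * finrank M F ≤ finrank E₁ M * finrank M F := Nat.mul_le_mul_right _ (by omega)
      omega
    exact IntermediateField.finrank_eq_one_iff.mp h4

/-- a finite Galois closure in the same universe -/
theorem exists_closure (E F : Type*) [Field E] [Field F] [Algebra E F] [CharZero E]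
    [FiniteDimensional E F] : ∃ Ω : IntermediateField E (AlgebraicClosure F),
      FiniteDimensional E Ω ∧ IsGalois E Ω ∧ Nonempty (F →ₐ[E] Ω) := by
  have : Algebra.IsAlgebraic E (AlgebraicClosure F) :=
    Algebra.IsAlgebraic.trans E F (AlgebraicClosure F)
  have : IsAlgClosure E (AlgebraicClosure F) := ⟨inferInstance, inferInstance⟩
  have : Normal E (AlgebraicClosure F) := IsAlgClosure.normal E _
  refine ⟨IntermediateField.normalClosure E F (AlgebraicClosure F), inferInstance, ?_,
    ⟨IsScalarTower.toAlgHom E F _⟩⟩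
  exact IsGalois.mk

end Crest.Agent.X262.Gal71
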